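import Mathlib

/-! Row 212: the linear-algebra and index bookkeeping used by the neck lemmas. -/

set_option autoImplicit false

namespace Crest.Agent.X212.Cmb96

open Finset

/-- A triangular pairing matrix with non-zero diagonal that factors through `C → F` has at most
`card C` rows. -/
theorem card_le_of_tri {F : Type*} [Field F] {C : Type*} [Fintype C] {n : ℕ}
    (x y : Fin n → C → F)
    (hd : ∀ i, ∑ c, x i c * y i c ≠ 0)
    (ht : ∀ i j, j < i → ∑ c, x i c * y j c = 0) : n ≤ Fintype.card C := by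
  classical
  let B : Matrix (Fin n) (Fin n) F := Matrix.of x * (Matrix.of y).transpose
  have hB : ∀ i j, B i j = ∑ c, x i c * y j c := fun i j => by
    simp [B, Matrix.mul_apply]
  have htri : B.BlockTriangular id := fun i j h => by
    rw [hB]; exact ht i j h
  have hdet : B.det ≠ 0 := by
    rw [Matrix.det_of_isUpperTriangular htri]
    exact Finset.prod_ne_zero_iff.2 fun i _ => by rw [hB]; exact hd i
  have hu : IsUnit B := (Matrix.isUnit_iff_isUnit_det B).2 (isUnit_iff_ne_zero.2 hdet)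
  have h1 : B.rank = n := by simpa using Matrix.rank_of_isUnit B hu
  have h2 : B.rank ≤ (Matrix.of x).rank := Matrix.rank_mul_le_left _ _
  have h3 : (Matrix.of x).rank ≤ Fintype.card C := Matrix.rank_le_card_width _
  omega

/-- the other triangle -/
theorem card_le_of_tri' {F : Type*} [Field F] {C : Type*} [Fintype C] {n : ℕ}
    (x y : Fin n → C → F)
    (hd : ∀ i, ∑ c, x i c * y i c ≠ 0)
    (ht : ∀ i j, i < j → ∑ c, x i c * y j c = 0) : n ≤ Fintype.card C :=
  card_le_of_tri y x (fun i => by simpa [mul_comm] using hd i)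
    (fun i j h => by simpa [mul_comm] using ht j i h)

/-- Toeplitz form: `B (x m) (y n) = p (m - n)`, `p j₀ ≠ 0`, `p j = 0` for `j > j₀`, known for
`m = j₀ + r`, `n = s ≤ r ≤ R` only. -/
theorem toeplitz {F : Type*} [Field F] {C : Type*} [Fintype C] (R j₀ : ℕ) (p : ℕ → F)
    (x y : ℕ → C → F) (h0 : p j₀ ≠ 0) (h1 : ∀ j, j₀ < j → p j = 0)
    (hB : ∀ r s, s ≤ r → r ≤ R → ∑ c, x (j₀ + r) c * y s c = p (j₀ + r - s)) :
    R + 1 ≤ Fintype.card C := by
  refine card_le_of_tri (n := R + 1) (fun r => x (j₀ + r)) (fun s => y s) (fun i => ?_)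
    (fun i j h => ?_)
  · rw [hB i i le_rfl (by omega)]; simpa using h0
  · have h' : (j : ℕ) < i := h
    rw [hB i j h'.le (by omega)]; exact h1 _ (by omega)

/-- A non-zero sequence that vanishes eventually has a last non-zero term. -/
theorem exists_top {F : Type*} [Zero F] (p : ℕ → F) (N : ℕ) (hN : ∀ j, N < j → p j = 0)
    (j : ℕ) (hj : p j ≠ 0) : ∃ j₀, j ≤ j₀ ∧ j₀ ≤ N ∧ p j₀ ≠ 0 ∧ ∀ i, j₀ < i → p i = 0 := by
  classical
  have hjN : j ≤ N := by by_contra h; exact hj (hN j (by omega))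
  refine ⟨Nat.findGreatest (fun i => p i ≠ 0) N, Nat.le_findGreatest hjN hj,
    Nat.findGreatest_le _, Nat.findGreatest_spec (P := fun i => p i ≠ 0) hjN hj, fun i hi => ?_⟩
  by_cases h : i ≤ N
  · simpa using Nat.findGreatest_is_greatest hi h
  · exact hN i (by omega)

/-! ### Broken chains -/

/-- ONE-SIDED chain lemma. Limits `0..r`, `fx i` = the `i`-th limit is a fixed point, `G i` its
grading. A step either raises `G` by at least one (free trajectory, bubble), or joins two fixed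
points and keeps `G ≥ 0`-ness because `G / 2` (floor) does not drop. -/
theorem chain_one (r : ℕ) (fx : ℕ → Prop) (G : ℕ → ℤ) (h0 : 0 ≤ G 0)
    (hs : ∀ i < r, G i + 1 ≤ G (i + 1) ∨ (fx i ∧ fx (i + 1) ∧ G i / 2 ≤ G (i + 1) / 2))
    (hfx : fx r → G r ≤ -1) (hfr : G r ≤ 0) : r = 0 ∧ ¬ fx 0 ∧ G 0 = 0 := by
  have key : ∀ i ≤ r, 0 ≤ G i := by
    intro i
    induction i with
    | zero => exact fun _ => h0
    | succ i ih =>
      intro hi
      have := ih (by omega)
      rcases hs i (by omega) with h | ⟨_, _, h⟩ <;> omega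
  have hr : ¬ fx r := fun h => by have := hfx h; have := key r le_rfl; omega
  cases r with
  | zero => exact ⟨rfl, hr, by omega⟩
  | succ r =>
    exfalso
    have := key r (by omega)
    rcases hs r (by omega) with h | ⟨_, h, _⟩
    · omega
    · exact hr h

/-- TWO-SIDED chain lemma. `ty i` = the `i`-th limit has `Φ = 0`; there `G` is odd; along a
trajectory with `Φ ≡ 0` the grading does not drop, all other steps raise it. -/
theorem chain_two (r : ℕ) (ty : ℕ → Prop) (G : ℕ → ℤ) (h0 : 0 ≤ G 0)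
    (hodd : ∀ i ≤ r, ty i → G i % 2 = 1)
    (hs : ∀ i < r, G i + 1 ≤ G (i + 1) ∨ (ty i ∧ ty (i + 1) ∧ G i ≤ G (i + 1)))
    (hr : G r ≤ 0) : r = 0 ∧ ¬ ty 0 ∧ G 0 = 0 := by
  have mono : ∀ i ≤ r, ∀ j, i + j ≤ r → G i ≤ G (i + j) := by
    intro i _ j
    induction j with
    | zero => simp
    | succ j ih =>
      intro hj
      have := ih (by omega)
      rcases hs (i + j) (by omega) with h | ⟨_, _, h⟩ <;>
        · rw [← add_assoc]; omega
  have hz : ∀ i ≤ r, G i = 0 := fun i hi => by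
    have h1 := mono 0 (by omega) i (by omega)
    have h2 := mono i hi (r - i) (by omega)
    rw [zero_add] at h1
    rw [show i + (r - i) = r by omega] at h2
    omega
  have hn : ∀ i ≤ r, ¬ ty i := fun i hi h => by
    have := hodd i hi h; have := hz i hi; omega
  refine ⟨?_, hn 0 (by omega), hz 0 (by omega)⟩
  by_contra h
  rcases hs 0 (by omega) with h1 | ⟨h1, _, _⟩
  · have := hz 0 (by omega); have := hz 1 (by omega); simp only [zero_add] at h1; omega
  · exact hn 0 (by omega) h1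

/-- The target grading `2 ⌊3 E⌋ + ε + 2 C`: deck equivariant, and its half is monotone in `E`. -/
noncomputable def tgt (E : ℝ) (ε : ℤ) (C : ℤ) : ℤ := 2 * ⌊3 * E⌋ + ε + 2 * C

theorem tgt_add_int (E : ℝ) (ε C n : ℤ) : tgt (E + n) ε C = tgt E ε C + 6 * n := by
  unfold tgt
  have : (3 : ℝ) * (E + n) = 3 * E + ((3 * n : ℤ) : ℝ) := by push_cast; ring
  rw [this, Int.floor_add_intCast]; ring

theorem tgt_half_mono {E E' : ℝ} (h : E ≤ E') {ε ε' : ℤ} (hε : ε = 0 ∨ ε = 1)
    (hε' : ε' = 0 ∨ ε' = 1) (C : ℤ) : tgt E ε C / 2 ≤ tgt E' ε' C / 2 := by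
  unfold tgt
  have : ⌊3 * E⌋ ≤ ⌊3 * E'⌋ := Int.floor_le_floor (by linarith)
  omega

theorem tgt_mono {E E' : ℝ} (h : E ≤ E') (ε C : ℤ) : tgt E ε C ≤ tgt E' ε C := by
  unfold tgt
  have : ⌊3 * E⌋ ≤ ⌊3 * E'⌋ := Int.floor_le_floor (by linarith)
  omega

/-! ### Contiguous sums of alternating weights (face inequality) -/

/-- If `w i ≥ -2` for all `i` and `w i + w (i+1) ≥ 0`, every contiguous sum is `≥ -2`. -/
theorem contiguous_ge (w : ℕ → ℤ) (h1 : ∀ i, -2 ≤ w i) (h2 : ∀ i, 0 ≤ w i + w (i + 1))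
    (a n : ℕ) : -2 ≤ ∑ i ∈ range n, w (a + i) := by
  have key : ∀ m, 0 ≤ ∑ i ∈ range (2 * m), w (a + i) := by
    intro m
    induction m with
    | zero => simp
    | succ m ih =>
      rw [show 2 * (m + 1) = 2 * m + 1 + 1 by ring, sum_range_succ, sum_range_succ]
      have := h2 (a + 2 * m)
      rw [add_assoc a] at this
      omega
  rcases Nat.even_or_odd' n with ⟨m, rfl | rfl⟩
  · have := key m; omega
  · rw [sum_range_succ]; have := key m; have := h1 (a + 2 * m); omega

end Crest.Agent.X212.Cmb96
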